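import Vale.Agent.P188.H789.OutA3
import Vale.Agent.P188.Z1.FlatgFin

/-!
# P188: quasi-isometric rigidity of virtually polycyclic groups
-/

set_option linter.all false

open MeasureTheory Set

universe u v

namespace Vale.Agent.P188.H187

open Vale.Agent.P188

/-- `FLATG` holds in all real models. -/
theorem flatgAll : H789.FlatgAll := by
  intro Γ _ k η d n D hη F t M B hD hk
  exact M.flatg_holds B hD.fine

/-- **Quasi-isometric rigidity of virtually polycyclic groups**: every group which is
quasi-isometric to a finitely generated virtually polycyclic group is virtually polycyclic. -/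
theorem rigidity {H : Type u} {G : Type v} [Group H] [Group G]
    (hG : IsVirtuallyPolycyclic G) (hQ : QuasiIsometric H G) : IsVirtuallyPolycyclic H :=
  H789.rigidity_of_flatg flatgAll hG hQ

end Vale.Agent.P188.H187
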