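import Vale.Agent.P188.H754.Malcev11
import Vale.Agent.P188.QI
import Vale.Agent.P188.Reduce

/-! P188: reduction of the rigidity statement to small groups and to a model group. -/

universe u v w

namespace Vale.Agent.P188.H187

open Vale.Agent.P188

/-- Virtual polycyclicity is invariant under isomorphism. -/
theorem isVirtuallyPolycyclic_of_mulEquiv {G : Type u} {G' : Type v} [Group G] [Group G']
    (e : G ≃* G') (h : IsVirtuallyPolycyclic G) : IsVirtuallyPolycyclic G' := by
  obtain ⟨P, hP, hP'⟩ := isVirtuallyPolycyclic_iff.1 h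
  refine isVirtuallyPolycyclic_iff.2 ⟨P.map e.toMonoidHom, ?_, hP'.map _⟩
  refine ⟨?_⟩
  have h1 : (P.map e.toMonoidHom).index = P.index :=
    Subgroup.index_map_of_bijective e.bijective P
  rw [h1]
  exact hP.index_ne_zero

/-- Isomorphic groups are coarsely equivalent. -/
theorem coarseEquiv_of_mulEquiv {G : Type u} {G' : Type v} [Group G] [Group G']
    (e : G ≃* G') : CoarseEquiv G G' := by
  refine ⟨e, e.symm, ?_, ?_, ?_, ?_⟩
  · intro A hA
    refine ⟨e '' A, hA.image _, fun x y hxy => ?_⟩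
    exact ⟨_, hxy, by simp⟩
  · intro A hA
    refine ⟨e.symm '' A, hA.image _, fun x y hxy => ?_⟩
    exact ⟨_, hxy, by simp⟩
  · refine ⟨{1}, Set.finite_singleton _, fun x => ?_⟩
    simp
  · refine ⟨{1}, Set.finite_singleton _, fun x => ?_⟩
    simp

/-- The data of the model group. -/
structure Z0 (Γ : Type) [Group Γ] (k : ℕ) (η : Γ →* Multiplicative (Fin k → ℤ)) : Prop where
  surj : Function.Surjective η
  ker_fg : η.ker.FG
  nil : Group.IsNilpotent η.ker
  fit : ∀ M : Subgroup Γ, M.Normal → Group.IsNilpotent M → M ≤ η.ker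
  polyZ : ∃ m, PolyZ m Γ
  ker_polyZ : ∃ m, PolyZ m η.ker
  torsionFree : ∀ (x : Γ) (e : ℕ), e ≠ 0 → x ^ e = 1 → x = 1
  weights : ∃ c : ℝ, 0 < c ∧ ∀ g : Γ, η g ≠ 1 → ∃ w : H754.GenWeight η.ker,
    c * ‖Multiplicative.toAdd (η g)‖ ≤ |Real.log ‖w.ρ g‖|

/-- What has to be proved: every finitely generated group coarsely equivalent to a model group is
virtually polycyclic. -/
def Core : Prop :=
  ∀ (Γ : Type) [Group Γ] (k : ℕ) (η : Γ →* Multiplicative (Fin k → ℤ)), Z0 Γ k η →
    ∀ (H : Type) [Group H] [Group.FG H], CoarseEquiv H Γ → IsVirtuallyPolycyclic H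

theorem countable_of_fg {H : Type u} [Group H] (h : Group.FG H) : Countable H := by
  obtain ⟨S, hS⟩ := (Group.fg_def (G := H)).1 h
  have h1 : ∀ n : ℕ, ∃ B : Set H, B.Finite ∧ ∀ x y : H, wordDist (S : Set H) x y ≤ n →
      x⁻¹ * y ∈ B := fun n => finite_ball hS S.finite_toSet n
  choose B hB hB' using h1
  have h2 : (⋃ n, B n) = (Set.univ : Set H) := by
    rw [Set.eq_univ_iff_forall]
    intro y
    refine Set.mem_iUnion.2 ⟨wordDist (S : Set H) 1 y, ?_⟩
    simpa using hB' _ 1 y le_rfl
  rw [← Set.countable_univ_iff, ← h2]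
  exact Set.countable_iUnion fun n => (hB n).countable

theorem fg_left {H : Type u} {G : Type v} [Group H] [Group G]
    (h : QuasiIsometric H G) : Group.FG H := by
  obtain ⟨S, T, hS, hT, _⟩ := h
  exact (Group.fg_def (G := H)).2 ⟨S, hS⟩

theorem fg_right {H : Type u} {G : Type v} [Group H] [Group G]
    (h : QuasiIsometric H G) : Group.FG G := by
  obtain ⟨S, T, hS, hT, _⟩ := h
  exact (Group.fg_def (G := G)).2 ⟨T, hT⟩

/-- The rigidity theorem follows from the case of the model groups. -/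
theorem rigidity_of_core (hcore : Core) {H : Type u} {G : Type v} [Group H] [Group G]
    (hG : IsVirtuallyPolycyclic G) (hQ : QuasiIsometric H G) : IsVirtuallyPolycyclic H := by
  have hH : Group.FG H := fg_left hQ
  have hGf : Group.FG G := fg_right hQ
  have : Countable H := countable_of_fg hH
  have : Countable G := countable_of_fg hGf
  have : Small.{0} H := Countable.toSmall H
  have : Small.{0} G := Countable.toSmall G
  let eH : H ≃* Shrink.{0} H := (Shrink.mulEquiv.{0, u} (α := H)).symm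
  let eG : G ≃* Shrink.{0} G := (Shrink.mulEquiv.{0, v} (α := G)).symm
  have hG' : IsVirtuallyPolycyclic (Shrink.{0} G) := isVirtuallyPolycyclic_of_mulEquiv eG hG
  obtain ⟨Γ, _, ι, hι, hfi, k, η, h1, h2, h3, h4, h5, h6, h7, h8⟩ := H754.virtPoly_genWeight hG'
  have hZ : Z0 Γ k η := ⟨h1, h2, h3, h4, h5, h6, h7, h8⟩
  have c1 : CoarseEquiv (Shrink.{0} H) H := coarseEquiv_of_mulEquiv eH.symm
  have c2 : CoarseEquiv H G := hQ.coarseEquiv
  have c3 : CoarseEquiv G (Shrink.{0} G) := coarseEquiv_of_mulEquiv eG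
  have c4 : CoarseEquiv (Shrink.{0} G) ι.range := coarseEquiv_of_finiteIndex _ hfi
  have c5 : CoarseEquiv ι.range Γ :=
    coarseEquiv_of_mulEquiv (MonoidHom.ofInjective hι).symm
  have hHf : Group.FG (Shrink.{0} H) :=
    Group.fg_of_surjective (f := eH.toMonoidHom) eH.surjective
  exact isVirtuallyPolycyclic_of_mulEquiv eH.symm
    (hcore Γ k η hZ (Shrink.{0} H) (c1.trans (c2.trans (c3.trans (c4.trans c5)))))

end Vale.Agent.P188.H187
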